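import Vale.Agent.P167.N.Kit
import Vale.Agent.P167.N.H506.Q.EF
import Vale.Agent.P167.H680.T.FrP

/-! generated from Vale.Agent.P167.H680.T.FrP (q < 1 port) -/

set_option autoImplicit false

namespace Vale.Agent.P167.N.H680.T

open Vale.Agent.P167.H680.T Vale.Agent.P167.H680

open Finset Filter Topology MeasureTheory

open Vale.Agent.P167.FK (Ex eta0 Good du syms Bq f_sym f_good)

open Vale.Agent.P167.FKA (Loc)

open Vale.Agent.P167.H519 (IsLim)

open Vale.Agent.P167.H506.Q (fz fz_loc fz_one fz_zero fz_nonneg fz_pos)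

open Vale.Agent.P167.H562.QM (lim_map loc_comp lim_du lim_tr)

open Vale.Agent.P167.H825.Q (Row)

variable {Q : ℝ} {P : Measure Cfg}

variable {θ κ : ℝ} {n : ℕ}

theorem pF_pos (hQ : Kit Q) (hP : IsLim Q P) (hg : ∀ᵐ ω ∂P, Good ω) (I : Finset (ℤ × ℤ))
    (f : Cfg) : 0 < pF P I f := Vale.Agent.P167.N.H506.Q.fz_pos hQ hP hg I f

end Vale.Agent.P167.N.H680.T
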